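import Vale.Agent.P352G23.PFG
import Vale.Agent.P352Z.P352X.R.D1
import Vale.Agent.P352Z.P352X.R.KD.B
import Vale.Agent.P352X.EB.CH0

open Vale.Agent.P352G

/-!
# P352G, the junction: the graded context gives the interface of the net-only route
-/

set_option linter.all false

open Set Filter Topology

namespace Vale.Agent.P352X.Pf.G

open Vale.Agent.P352 Vale.Agent.P352.GF Vale.Agent.P352.BW Vale.Agent.P352.H246
open Vale.Agent.P352.H496 Vale.Agent.P352.H755 Vale.Agent.P352.H15
open UniformSpace (Completion)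
open EB

variable {D : Type*} [NormedAddCommGroup D] [InnerProductSpace ℂ D] [GrD D] {c : CtxZ D}

theorem l_clm (c : CtxZ D) : ∃ L : Sch →L[ℂ] Completion D, ∀ g, L g = c.l (ev g) := by
  have k : ∀ (f g : Sch) (a : ℂ), c.l (ev (f + a • g)) = c.l (ev f) + a • c.l (ev g) :=
    fun f g a => c.hl.lin (ev f) (ev g) a ⟨f, rfl⟩ ⟨g, rfl⟩
  have k0 : c.l (ev 0) = 0 := by simpa using k 0 0 1
  exact ⟨⟨⟨⟨fun g => c.l (ev g), fun f g => by simpa using k f g 1⟩,
    fun a f => by simpa [k0] using k 0 f a⟩, c.hl.cont⟩, fun _ => rfl⟩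

/-- the finite action of `exp (i t K)` on the potential -/
theorem l_flow (g : G1Z c) {f : Fn} {s : ℝ} (hf : In {z | be z < 0} f) (hs : 0 ≤ s) :
    c.SK s (c.l f) = c.l (pb 2 s f) := by
  obtain ⟨U, -, u1, u2, u3⟩ := ch0_row.fam f hf
  obtain ⟨L, hL⟩ := l_clm c
  have d : ∀ r ∈ Ici (0 : ℝ), HasDerivAt (fun r => c.SK (-r) (L (sch (pb 2 r f)))) 0 r :=
    fun r hr => by
    obtain ⟨a, b⟩ := u3 r (u1 hr)
    have h := u2.hasDerivAt L (u1 hr)
    rw [funext b, hL, Ap.ev_sch (Ap.in_Kc 2 a).1] at h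
    refine (c.ugK.hasDerivAt_comp (hasDerivAt_neg r) h
      ((g.pot _ a).cast (by rw [hL, Ap.ev_sch a.1]) rfl)).congr_deriv ?_
    rw [map_smul, I_neg_I, neg_one_smul, neg_add_cancel]
  have e := constant_of_has_deriv_right_zero
    (fun r hr => (d r hr.1).continuousAt.continuousWithinAt)
    (fun r hr => (d r hr.1).hasDerivWithinAt) s (right_mem_Icc.2 hs)
  rw [hL, hL, Ap.ev_sch (u3 s (u1 hs)).1.1, neg_zero, Ch0.pb_zero, Ap.ev_sch hf.1, c.ugK.zero] at e
  rw [← e, ← c.ugK.add, add_neg_cancel, c.ugK.zero]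

theorem sk_comm (G : GRPZ c) {s : ℝ} (hs : 0 ≤ s) {Z : Completion D →L[ℂ] Completion D}
    (hZ : Z ∈ (c.N W0).commutant) : star (c.SK s) * Z * c.SK s ∈ (c.N W0).commutant := by
  refine conj_comm (c.ugK.uni s) (fun X hX => ?_) hZ
  have := (G.geo 0 s X le_rfl hs).1 (by rwa [KDa.rc_zero])
  rw [sub_zero, zero_sub, ← c.ugK.star_eq] at this
  exact c.hN.mono _ _ ((KDa.rc_subZ G le_rfl hs 0).trans KDa.rc_zero.subset) _ this

/-- **the junction** -/
theorem ni_of (t : T2Z c) (g : G1Z c) (E : EEZ c) (hc : EG.NG.COV c.cg) :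
    @EG.NG.NI _ _ _ c.cg (nd c) :=
  letI := nd c
  have ab : 0 < mdot va vb := by rw [md_ab]; exact one_pos
  { hT := c.hT
    hl :=
      { lin := c.hl.lin, cont := c.hl.cont, trace := c.hl.trace, gam := c.gl
        cov := fun s L a f hs hL hf => by
          show c.l f = _ • Ug c.Q s L a (c.l _)
          rw [t.grp.pot s L a f hs hL hf, ← Complex.coe_smul, smul_smul, ← Complex.ofReal_mul,
            mul_inv_cancel₀ (pow_pos hs 2).ne', Complex.ofReal_one, one_smul]
        pr := fun f hf => by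
          have := D1Z.pr_wdg t.jc hf
          rwa [KDa.rc_zero] at this
        flow := fun f s hf hs => l_flow g hf hs }
    K_zero := c.ugK.zero
    K_vac := c.K_vac
    skc := fun s hs Z hZ => sk_comm t.grp hs hZ
    dual := t.jc.dual va vb 0 null_va null_vb ab
    core := fun e ψ ψ' h h' k => by
      cases e
      · simp only [EG.sg, cond_false, one_smul, one_mul] at h h' k
        exact t.jc.core va vb 0 ψ ψ' null_va null_vb ab h h' k
      · simp only [EG.sg, cond_true, neg_one_smul, neg_one_mul] at h h' k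
        exact t.jc.coreO va vb 0 ψ ψ' null_va null_vb ab h h' k
    pf := pf_g t E hc }

end Vale.Agent.P352X.Pf.G
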