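import Vale.Agent.P352G44.Spec
import Vale.Agent.P352G6.Bwg

/-!
# P352G, row TRA: the modular conjugation and the null translations
-/

set_option linter.all false

noncomputable section

namespace Vale.Agent.P352G23

open Vale.Agent.P352 Vale.Agent.P352.GF Vale.Agent.P352.BW Vale.Agent.P352.H246 Vale.Agent.P352.H496
open Vale.Agent.P352.H15 Vale.Agent.P352.H755 Vale.Agent.P352X Vale.Agent.P352G Vale.Agent.P352X.EG
open Vale.Agent.P352G44
open Vale.Agent.P352X.EB (W0 W1)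
open Vale.Agent.P132 (ModData)
open UniformSpace (Completion)

variable {D : Type*} [NormedAddCommGroup D] [InnerProductSpace ℂ D] [GrD D]
  {Q : Theory D} {A : (V → V) → D → D} {𝒜 : Set V → VonNeumannAlgebra (Completion D)}

/-- Lorentz transformations and translations -/
theorem ug_ut (h : LNmZ Q A 𝒜) {L : Ix → V} (hL : IsLor L) (y : V) (z : Completion D) :
    Ug Q 1 L 0 (Ut Q y z) = Ut Q (sim 1 L 0 y) (Ug Q 1 L 0 z) := by
  refine Bwg.ext_coe (X := Ug Q 1 L 0 * Ut Q y) (Y := Ut Q (sim 1 L 0 y) * Ug Q 1 L 0)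
    (fun v => ?_) z
  have e1 := h.mul 1 L 0 1 GF.one y v one_pos one_pos hL H496.isLor_one (.inr (.inl rfl))
  have e2 := h.mul 1 GF.one (sim 1 L 0 y) 1 L 0 v one_pos one_pos H496.isLor_one hL (.inl rfl)
  have a1 : (fun m => sim 1 L 0 (GF.one m)) = L := funext fun m => by
    funext n
    simp [sim, GF.one, bas]
  simp only [sim_one', add_zero, zero_add] at e2
  rw [a1] at e1
  show Ug Q 1 L 0 (Ug Q 1 GF.one y v) = Ug Q 1 GF.one _ (Ug Q 1 L 0 v)
  rw [Grp.coe one_pos H496.isLor_one, Grp.coe one_pos hL, Grp.coe one_pos hL,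
    Grp.coe one_pos H496.isLor_one, e1, e2]

theorem rs2 (h : LNmZ Q A 𝒜) (y : V) :
    Dense {z | ∃ x ∈ 𝒜 W0, Ut Q y * x * star (Ut Q y) ∈ 𝒜 W0 ∧ x (om Q) = z} := by
  let γ : Sh h.cg := ⟨⟨1, GF.one, y, one_pos, H496.isLor_one⟩, false⟩
  have e : ∀ x, γ.act x = x + y := fun x => HM.sim_tr y x
  have o : IsOpen (W0 ∩ γ.act ⁻¹' W0) :=
    (wdg_open _ _ _).inter ((wdg_open _ _ _).preimage γ.toSg.cont)
  refine (SGx.rs (c := h.cg) o ⟨pt (|al y| + 1) (-(|be y| + 1)) 0, ?_, ?_⟩).mono ?_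
  · rw [Ap.mem_W]
    simp only [be_pt, al_pt, be_zero, al_zero]
    constructor <;> linarith [abs_nonneg (al y), abs_nonneg (be y)]
  · rw [Set.mem_preimage, e, Ap.mem_W]
    simp only [be_add, be_pt, al_add, al_pt, be_zero, al_zero]
    constructor <;> linarith [neg_abs_le (al y), le_abs_self (be y)]
  · rintro _ ⟨x, hx, rfl⟩
    exact ⟨x, h.mono _ _ Set.inter_subset_left x hx,
      h.mono _ _ (by rintro _ ⟨z, hz, rfl⟩; exact hz.2) _ (SGx.alg1 γ hx), rfl⟩

theorem tra1 (S : SOFT (Completion D)) (h : LNmZ Q A 𝒜) (hG : TfGenZ Q)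
    (E : ModData (𝒜 W0) (om Q)) {c : V} {κ : ℝ} (hκ : κ = 2 * Real.pi ∨ κ = -(2 * Real.pi))
    (hc : ∀ t u : ℝ, sim 1 (T.bq va vb t) 0 (u • c) = (Real.exp (κ * t) * u) • c)
    (hj : ∀ s : ℝ, jr (s • c) = (-s) • c) (s : ℝ) : Jx E 1 GF.one (s • c) := by
  have g := sg_row h.cg
  have un : ∀ y, Ut Q y ∈ unitary (Completion D →L[ℂ] Completion D) := fun y =>
    g.uni ⟨⟨1, GF.one, y, one_pos, H496.isLor_one⟩, false⟩
  have ad : ∀ t u : ℝ, Ut Q ((t + u) • c) = Ut Q (t • c) * Ut Q (u • c) := fun t u => by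
    rw [add_smul]
    exact g.ut _ _
  have st : star (Ut Q (s • c)) = Ut Q ((-s) • c) := by
    have e : Ut Q (s • c) * Ut Q ((-s) • c) = 1 := by
      rw [← ad, add_neg_cancel, zero_smul]
      exact g.ut0
    rw [← mul_one (star _), ← e, ← mul_assoc, (un _).1, one_mul]
  intro z
  rw [JCa.jL_one, hj]
  refine S _ _ E (fun u => Ut Q (u • c)) κ s hκ (fun _ => un _) ad
    (fun z => (g.utc z).comp (by fun_prop))
    (fun t => (g.vac ⟨⟨1, GF.one, t • c, one_pos, H496.isLor_one⟩, false⟩).1)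
    (fun t u => ContinuousLinearMap.ext fun z => ?_) (st ▸ rs2 h _) z
  show E.U t (Ut Q _ z) = Ut Q _ (E.U t z)
  rw [Bwg.bw0 h hG E, Bwg.bw0 h hG E, ug_ut h (Bws.lor t), hc]

/-- **row TRA** -/
theorem tra (S : SOFT (Completion D)) : TRA D := fun Q A 𝒜 h hG E t =>
  ⟨tra1 S h hG E (.inr rfl) (fun t u => by
      rw [T.bq, sim_bst, md_smul, md_smul, null_va.1, md_comm vb va, md_ab, neg_mul]
      module) (fun s => null_ext (by simp) (by simp) (by simp)) t,
    tra1 S h hG E (.inl rfl) (fun t u => by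
      rw [T.bq, sim_bst, md_smul, md_smul, null_vb.1, md_ab]
      module) (fun s => null_ext (by simp) (by simp) (by simp)) t⟩

end Vale.Agent.P352G23

end
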