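import Vale.Agent.P352G44.Jug

/-!
# P352G: the modular conjugation of the wedge and the Bose tensor fields
-/

set_option linter.all false

noncomputable section

open Filter Topology Set
open scoped ComplexConjugate

namespace Vale.Agent.P352G23

open Vale.Agent.P352 Vale.Agent.P352.GF Vale.Agent.P352.BW Vale.Agent.P352.H246 Vale.Agent.P352.H496
open Vale.Agent.P352.H15 Vale.Agent.P352.H755 Vale.Agent.P352X Vale.Agent.P352G Vale.Agent.P352X.EG
open Vale.Agent.P352X.JCa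
open Vale.Agent.P352.BW.T (Ten op tp cp rq Afs)
open Vale.Agent.P352.BW.H49 (Adj)
open Vale.Agent.P352X.EB (W0 W1)
open Vale.Agent.P132 (ModData)
open UniformSpace (Completion)

variable {D : Type*} [NormedAddCommGroup D] [InnerProductSpace ℂ D] [GrD D]
  {Q : Theory D} {A : (V → V) → D → D} {𝒜 : Set V → VonNeumannAlgebra (Completion D)}
  {k : ℕ} {Φ Ψ : (Fin k → Ix) → Fld D} {f : Fn}

theorem coe_op (a : (Fin k → Ix) → ℂ) (v : D) :
    ((op Φ a f v : D) : Completion D) = ∑ μ, a μ • ((Φ μ f v : D) : Completion D) := by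
  rw [show ((op Φ a f v : D) : Completion D) = ∑ μ, ((a μ • Φ μ f v : D) : Completion D) from
    map_sum (Completion.toComplL (𝕜 := ℂ) (E := D)) _ Finset.univ]
  simp only [Completion.coe_smul]

theorem u_op (h : LNmZ Q A 𝒜) (hG : TfGenZ Q) (E : ModData (𝒜 W0) (om Q)) (hΦ : Ten Q k Φ)
    (a : (Fin k → Ix) → ℂ) (hf : IsTest f) (t : ℝ) : E.U t (op Φ a f Q.vac : D) =
      (op Φ (tp (O649.bi va vb t) a) (cp (O649.bi va vb t) f) Q.vac : D) := by
  have e := T.cov_of hΦ a (Bws.lor (-t)) hf Q.vac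
  rw [Q.U_vac 1 _ 0 one_pos (Bws.lor _)] at e
  rw [e, ← Grp.coe one_pos (Bws.lor _), ← Bwg.bw0 h hG E, E.U_apply_neg, Bws.bi_eq]

/-- the modular conjugation on one-field vectors -/
theorem jw (h : LNmZ Q A 𝒜) (hG : TfGenZ Q) (E : ModData (𝒜 W0) (om Q)) (hΦ : Ten Q k Φ)
    (hΨ : Ten Q k Ψ) (ad : Adj Φ Ψ) (a : (Fin k → Ix) → ℂ) (hf : In W0 f) :
    ((op Φ (tp (rq va vb) a) (cp (rq va vb) f) Q.vac : D) : Completion D) =
      E.J ((op Ψ (fun μ => conj (a μ)) (bar f) Q.vac : D) : Completion D) := by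
  let e := (Fintype.equivFin (Fin k → Ix)).symm
  have o : ∀ (κ : (Fin k → Ix) → ℂ) g, ov h.cg (fun i => Φ (e i)) (fun i => κ (e i)) g =
      (op Φ κ g Q.vac : D) := fun κ g => by
    rw [coe_op]
    exact e.sum_comp fun μ => κ μ • ((Φ μ g Q.vac : D) : Completion D)
  obtain ⟨G, g1, g2, g3, g4⟩ := og_row h.cg va vb null_va null_vb md_ab _ (fun i => Φ (e i))
    (fun z i => O649.cz va vb a z (e i)) f (fun t z => E.U t z) (op Φ a f Q.vac : D)
    (op Φ (tp (rq va vb) a) (cp (rq va vb) f) Q.vac : D) (fun i => hΦ.fld _)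
    (fun i => O649.nice_cz _ _ _ _) hf (fun t z => E.norm_U t z) fun t => by
      simp only [O649.cz_real, O649.cz_half null_va null_vb md_ab]
      rw [o, o, u_op h hG E hΦ _ hf.1, u_op h hG E hΦ _ (Bws.in_rq hf).1]
      exact ⟨rfl, rfl⟩
  refine H49.val_eq E (V := fun t z => E.U t z) (fun t F z => ?_) (fun z => by simp)
    ((T.m _ Q.vac E (op Φ a f) (op Ψ (fun μ => conj (a μ)) (bar f))).1
      (T.afs_of (fun v w => ad a f v w hf.1)
        (T.H732W.aff_sum (fun μ => h.fld _ _ f (hΦ.fld μ) hf) a)))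
    (T.ct_of g1 g2 g3 g4) fun t => E.U_neg_apply t _
  rw [ModData.U, E.Th_Th_apply, E.Th_Th_apply, mul_comm]

theorem op_tr (hΦ : Ten Q k Φ) (a : (Fin k → Ix) → ℂ) (y : V) (hf : IsTest f) (v : D) :
    op Φ a f (Q.U 1 GF.one y v) = Q.U 1 GF.one y (op Φ a (fun x => f (sim 1 GF.one y x)) v) := by
  rw [op, op, H246.U_sum one_pos H496.isLor_one]
  exact Finset.sum_congr rfl fun μ _ => by
    rw [U_smul one_pos H496.isLor_one, Q.transl _ y f _ (hΦ.fld μ) hf]

/-- **`J X J`** for Bose tensor fields -/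
theorem jop (h : LNmZ Q A 𝒜) (hG : TfGenZ Q) (E : ModData (𝒜 W0) (om Q)) (hΦ : Ten Q k Φ)
    (hΨ : Ten Q k Ψ) (ad : Adj Φ Ψ) (hb : ∀ μ, Q.bose (Ψ μ)) (a : (Fin k → Ix) → ℂ)
    (hf : In univ f) {v v' : D} (hv : E.J v = v') :
    E.J (op Φ a f v : D) = (jo Ψ a f v' : D) := by
  have t := e0_thm h.cg
  have h1 := H496.isLor_one
  have key0 : ∀ {f} {v v' : D}, In W0 f → E.J v = v' → E.J (op Φ a f v : D) = (jo Ψ a f v' : D) := by
    intro f v v' hf hv
    have i1 := Bws.in_rq (Bws.in_bar hf)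
    refine anti E (T.afs_of (fun v w => ad a f v w hf.1)
        (T.H732W.aff_sum (fun μ => h.fld _ _ f (hΦ.fld μ) hf) a))
      (T.afs_of (fun v w => ad.symm _ _ v w i1.1) (T.H732W.aff_sum (fun μ => ?_) _)) ?_ hv
    · obtain ⟨B', b, d⟩ := Q.adj _ (hΨ.fld μ)
      have := t.bas.aff false _ _ _ (hΨ.fld μ) b d (fun g w hg =>
        (h.gr.bose _ g w (hb μ) hg).trans (one_smul ℂ _).symm) i1
      exact ⟨_, this.1, this.2⟩
    · rw [← jw h hG E hΦ hΨ ad a hf]
      congr 2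
      · funext ν
        simp [tp_rj]
      · rw [T.bar_cp, T.bar_bar']
  have ut : ∀ y z, E.J (Ug Q 1 GF.one y z) = Ug Q 1 GF.one (jr y) (E.J z) := fun y z => by
    rw [(P352G44.jug_row D Q A 𝒜 h hG E).2.1 1 _ y z one_pos h1 (.inl rfl), jL_one]
  obtain ⟨y, hy⟩ := H49.ex_tr hf.2.1
  have hg := H49.in_tr hf.1 hf.2.1 hy
  have e1 := op_tr hΦ a y hg.1 v
  have e2 := op_tr hΨ (tp rj fun μ => conj (a μ)) (jr y) (test_jr (T.test_bar hg.1)) v'
  rw [H49.tr_sim] at e1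
  have e3 : (fun x => cp rj (bar (H49.tr y f)) (sim 1 GF.one (jr y) x)) = cp rj (bar f) := by
    rw [cp_rj, cp_rj]
    conv_rhs => rw [← H49.tr_sim y f]
    funext x
    have := sim_jL GF.one 1 y (jr x)
    rw [jL_one, jr_jr] at this
    simp only [bar, this, jr_jr]
  rw [e3] at e2
  have u := (t.sg.uni ⟨⟨1, GF.one, jr y, one_pos, h1⟩, false⟩).1
  have u1 : ∀ z, star (Ug Q 1 GF.one (jr y)) (Ug Q 1 GF.one (jr y) z) = z := fun z =>
    DFunLike.congr_fun u z
  rw [← u1 (E.J _), ← u1 (jo Ψ a f v' : D), ← ut, Grp.coe one_pos h1, Grp.coe one_pos h1, ← e1, jo,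
    ← e2]
  refine congrArg _ (key0 hg ?_)
  rw [← Grp.coe one_pos h1, ← Grp.coe one_pos h1, ut, hv]

/-- **`J T(f) J`** on the domain -/
theorem jt (h : LNmZ Q A 𝒜) (hG : TfGenZ Q) (E : ModData (𝒜 W0) (om Q)) {T : Ix → Ix → Fld D}
    (hT : Q.IsStress T) (m n : Ix) (hf : IsTest f) {v v' : D} (hv : E.J v = v') :
    E.J (T m n f v : D) =
      (((sj m * sj n : ℝ) : ℂ) • T m n (bar fun z => f (jr z)) v' : D) := by
  classical
  have tn : Ten Q 2 fun μ => T (μ 0) (μ 1) := by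
    refine ⟨fun μ => Grp.T_fld hT _ _, fun μ L f v hL hf => ?_⟩
    rw [hT.cov _ _ 1 L 0 f v one_pos hL hf, ← (finTwoArrowEquiv Ix).symm.sum_comp,
      Fintype.sum_prod_type]
    simp [finTwoArrowEquiv, Fin.prod_univ_two]
  have ad : Adj (fun μ : Fin 2 → Ix => T (μ 0) (μ 1)) fun μ => T (μ 0) (μ 1) := by
    intro a f v w hf
    rw [op, op, sum_inner, inner_sum]
    exact Finset.sum_congr rfl fun μ _ => by
      rw [inner_smul_left, inner_smul_right, hT.herm _ _ f v w hf]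
  obtain ⟨g, rfl⟩ := hf
  obtain ⟨-, u, -, -, h1, -, h2⟩ := ST.exists_cut g
  let e := BW.T.eqv rj rj (fun x => by rw [sim_rj, sim_rj, jr_jr]) fun x => by
    rw [sim_rj, sim_rj, jr_jr]
  let B : Sch → Sch := fun g => SchwartzMap.postcompCLM (𝕜 := ℝ) (Complex.conjCLE : ℂ →L[ℝ] ℂ)
    (SchwartzMap.compCLMOfContinuousLinearEquiv ℂ e g)
  have hB : ∀ g, ev (B g) = bar fun z => ev g (jr z) := fun g =>
    funext fun z => congrArg (fun x => star (g x)) (sim_rj z)
  have cT := fun v => Q.cont _ v (Grp.T_fld hT m n)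
  have cc := Completion.continuous_coe D
  refine tendsto_nhds_unique ((E.J.continuous.comp (cc.comp (cT v))).tendsto g |>.comp h2) ?_
  rw [← hB]
  refine ((cc.comp (((cT v').comp (show Continuous B by fun_prop)).const_smul
    ((sj m * sj n : ℝ) : ℂ))).tendsto g |>.comp h2).congr fun i => ?_
  have k := jop h hG E tn tn ad (fun μ => hT.bose _ _) (Pi.single ![m, n] 1) (f := ev (u i))
    ⟨⟨_, rfl⟩, h1 i, subset_univ _⟩ hv
  rw [BW.T.op_single, jo, op, Finset.sum_eq_single ![m, n], tp_rj, cp_rj] at k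
  · refine Eq.trans ?_ k.symm
    simp [hB]
    rfl
  · intro ν _ h
    simp [tp_rj, Pi.single_eq_of_ne h]
  · simp

end Vale.Agent.P352G23

end
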