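import Vale.Agent.P352G23.NI
import Vale.Agent.P352G6.Cov
import Vale.Agent.P352G.Top
import Vale.Agent.P352Z.P352X.Main

open Vale.Agent.P352G

/-!
# P352G, row NIC
-/

set_option linter.all false

namespace Vale.Agent.P352X.Pf.G

variable {D : Type*} [NormedAddCommGroup D] [InnerProductSpace ℂ D] [GrD D]

theorem dd_thm (c : CtxZ D) [Fact c.tp] : P352X.DDZ c :=
  have t := t3_thmZ c
  have far := far_rowZ c t
  dd_rowZ c t (d1_rowZ c t (sch_rowZ c t) (yz_rowZ c t (res_rowZ c t) far (ix_rowZ c t far)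
    (cont_rowZ c t far (conm_rowZ c t) (conk_row0Z c t (bp0_rowZ c t (bb_ofZ c t))))
    (ib_rowZ c t) (sw_rowZ c t)))

/-- **row NIC** -/
theorem nic : NIC D := fun c tp hM hF =>
  haveI : Fact c.tp := ⟨tp⟩
  have t := t3_thmZ c
  have E := ee_rowZ c t (bb_ofZ c t) (dd_thm c)
  ni_of t.toT2Z (g1_rowZ c t (dd_thm c) E) E (EG.NG.cov_row (EG.e0_thm c.cg) hM hF)

end Vale.Agent.P352X.Pf.G
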