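import Vale.Agent.P352Z.P352NA.PF.Flow
import Vale.Agent.P352NA.PF.Main
import Vale.Agent.P352G75.Defs
import Vale.Agent.P352X.EG.W

open Vale.Agent.P352G

/-!
# P352G, row PF for graded nets
-/

set_option linter.all false

open Set Filter Topology
open scoped SchwartzMap ComplexConjugate

namespace Vale.Agent.P352X.Pf.G

open Vale.Agent.P352 Vale.Agent.P352.GF Vale.Agent.P352.H15 Vale.Agent.P352.H755
open Vale.Agent.P352.H246 (In Al)
open Vale.Agent.P352.SubConf (IsAdj)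
open UniformSpace (Completion)
open Complex (I)
open TPD (TT)
open KDa (barL)
open G1 (Hs)
open EB (rh cph Reg Sg)
open EB.NA (pe Pol)
open EB.NA.Pe
open EG (Cg Sh)
open EG.NG (Tr)
open Real (exp)

noncomputable section

variable {D : Type*} [NormedAddCommGroup D] [InnerProductSpace ℂ D]

section tr

variable {c : Cg D} {K : Set V} {ξ ξ' : Completion D}

theorem tr_symm (h : Tr c K ξ ξ') : Tr c K ξ' ξ := by
  induction h with
  | zero => exact .zero
  | fld B B' f a b d hf =>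
    have := Tr.fld B' B (bar f) b a (H755.adj_symm d) hf.bar
    rwa [Ap.bar_bar] at this
  | add _ _ _ _ _ _ a b => exact .add _ _ _ _ a b
  | smul z _ _ _ a =>
    have := Tr.smul (conj z) _ _ a
    rwa [Complex.conj_conj] at this

theorem tr_sum {ι : Type*} (s : Finset ι) {f f' : ι → Completion D}
    (h : ∀ i ∈ s, Tr c K (f i) (f' i)) : Tr c K (∑ i ∈ s, f i) (∑ i ∈ s, f' i) := by
  classical
  induction s using Finset.induction_on with
  | empty => exact .zero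
  | insert i s hi ih =>
    simp only [Finset.sum_insert hi]
    exact .add _ _ _ _ (h i (Finset.mem_insert_self _ _))
      (ih fun j hj => h j (Finset.mem_insert_of_mem hj))

theorem tr_al (h : Tr c K ξ ξ') :
    ∃ X X', Al c.Q K X X' ∧ ξ = (X c.Q.vac : D) ∧ ξ' = (X' c.Q.vac : D) := by
  induction h with
  | zero => exact ⟨_, _, .smul 0 _ _ .one, by simp [Completion.coe_zero], by simp [Completion.coe_zero]⟩
  | fld B B' f a b d hf => exact ⟨_, _, .fld B B' f _ _ a b d hf .one, rfl, rfl⟩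
  | add _ _ _ _ _ _ a b =>
    obtain ⟨X, X', a1, rfl, rfl⟩ := a
    obtain ⟨Y, Y', b1, rfl, rfl⟩ := b
    exact ⟨_, _, .add _ _ _ _ a1 b1, (Completion.coe_add _ _).symm, (Completion.coe_add _ _).symm⟩
  | smul z _ _ _ a =>
    obtain ⟨X, X', a1, rfl, rfl⟩ := a
    exact ⟨_, _, .smul z _ _ a1, (Completion.coe_smul _ _).symm, (Completion.coe_smul _ _).symm⟩

theorem u_vac (s : EG.SG c) (g : Sh c) {n : ℕ} {κ : Fin n → ℂ} {y : Fin n → Completion D}
    (h : ξ = ∑ i, κ i • g.inv.U c (y i)) : g.U c ξ = ∑ i, κ i • y i := by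
  rw [h, map_sum]
  refine Finset.sum_congr rfl fun i _ => ?_
  rw [map_smul, s.U_inv]
  exact congrArg _ (DFunLike.congr_fun (s.uni g).2 _)

theorem lb_fld (q : EG.H.Lb c) : c.Q.fld q.B ∧ c.Q.fld q.B' :=
  ⟨let ⟨_, _, _, m, e⟩ := q.h; e ▸ m.mf.1 _, let ⟨_, _, _, m, e⟩ := q.h'; e ▸ m.mf.1 _⟩

end tr

variable [GrD D] {c : CtxZ D} {φ φ' ψ ψ' : TT D} {B B' : Fld D} {g : Sh c.cg} {l : ℂ}

/-- the data of the net-only route -/
@[reducible] def nd (c : CtxZ D) : EG.NG.Nd c.cg := ⟨c.T, c.l, c.SK⟩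

theorem fld_lin (h : c.Q.fld B) (f g : Sch) (a : ℂ) :
    B (ev (f + a • g)) c.Q.vac = B (ev f) c.Q.vac + a • B (ev g) c.Q.vac :=
  c.Q.lin B (ev f) (ev g) a c.Q.vac h ⟨f, rfl⟩ ⟨g, rfl⟩

/-- fields applied to the vacuum -/
def fw (h : c.Q.fld B) : TT D := Completion.toComplL ∘L
  ⟨⟨⟨fun f => B (ev f) c.Q.vac, fun f g => by simpa using fld_lin h f g 1⟩, fun a f => by
    have z : B (ev 0) c.Q.vac = 0 := by simpa using fld_lin h 0 0 1
    simpa [z] using fld_lin h 0 f a⟩, c.Q.cont B _ h⟩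

theorem fw_apply (h : c.Q.fld B) (f : Sch) : fw h f = (B (ev f) c.Q.vac : D) := rfl

theorem fw_tc (G : GRPZ c) (h : c.Q.fld B) : TCZ c (fw h) := fun a f => by
  have := c.Q.transl B a (ev (ST.tsl a f)) c.Q.vac h ⟨_, rfl⟩
  rw [c.Q.U_vac _ _ _ one_pos H496.isLor_one] at this
  rw [fw_apply, fw_apply, this, Ut, G.coe _ _ _ _ one_pos H496.isLor_one]
  congr 3
  funext z
  simp [ev, ST.tsl_apply, sim_ut]

/-- pairs of true letters -/
def TQ (c : CtxZ D) (φ φ' : TT D) : Prop :=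
  ∀ K f, In K f → Tr c.cg K (φ (sch f)) (φ' (sch (bar f)))

theorem TQ.symm (h : TQ c φ φ') : TQ c φ' φ := fun K f hf => by
  simpa only [Ap.bar_bar] using tr_symm (h K _ hf.bar)

theorem TQ.add (h : TQ c φ φ') (h' : TQ c ψ ψ') : TQ c (φ + ψ) (φ' + ψ') :=
  fun K f hf => .add _ _ _ _ (h K f hf) (h' K f hf)

theorem TQ.smul (z : ℂ) (h : TQ c φ φ') : TQ c (z • φ) (star z • φ') :=
  fun K f hf => .smul z _ _ (h K f hf)

theorem TQ.lc (G : GRPZ c) (h : TQ c φ φ') : LcZ c φ φ' := fun r _ f h1 h2 => by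
  obtain ⟨X, X', a, b, d⟩ := tr_al (h _ (ev f) ⟨⟨f, rfl⟩, h1, h2⟩)
  rw [Ap.sch_ev] at b
  rw [← KDa.ev_barL, Ap.sch_ev] at d
  rw [b, d]
  exact G.pr_Al a

theorem fw_tr (h : c.Q.fld B) (h' : c.Q.fld B') (a : IsAdj B B') : TQ c (fw h) (fw h') :=
  fun K f hf => by
  rw [fw_apply, fw_apply, Ap.ev_sch hf.1, Ap.ev_sch hf.bar.1]
  exact Tr.fld (c := c.cg) _ _ _ h h' a hf

theorem dm_D (G : GRPZ c) {W : ℝ → Completion D →L[ℂ] Completion D} {ε : ℝ → V ≃L[ℝ] V}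
    {X : V →L[ℝ] V} (k : Fl W ε X) {s : ℝ → ℝ} {L : ℝ → Ix → V} (h : ∀ t, 0 < s t ∧ IsLor (L t))
    (hW : ∀ t, W t = Ug c.Q (s t) (L t) 0) (he : ∀ t z, sim (s t) (L t) 0 z = ε t z) (s0 : s 0 = 1)
    (L0 : L 0 = GF.one) (v : D) : Dm W (v : Completion D) := by
  have d := c.hN.toRepZ.der s L (fun _ => 0) X v s0 L0 rfl h fun n x => by
    simp only [he]
    exact ((pj n).hasFDerivAt.comp_hasDerivAt 0 (k.der.clm_apply (hasDerivAt_const _ x))).congr_deriv
      (by simp)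
  simp only [Dm, hW, G.coe _ _ _ v (h _).1 (h _).2]
  exact (((Completion.toComplL : D →L[ℂ] Completion D).restrictScalars ℝ).hasFDerivAt.comp_hasDerivAt
    0 d).differentiableAt

/-- the scalings as similitudes -/
def gS' (G : GRPZ c) (x y : ℝ) : Sh c.cg := ⟨⟨_, _, 0, Real.sqrt_pos.2 (mul_pos (Real.exp_pos x)
  (Real.exp_pos y)), (G.lsc _ _ (Real.exp_pos x) (Real.exp_pos y)).1⟩, false⟩

/-- the null rotations as similitudes -/
def gG' (G : GRPZ c) (w : R2) : Sh c.cg := ⟨⟨1, _, 0, one_pos, (G.lga w).1⟩, false⟩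

theorem dm_S (G : GRPZ c) (x y : ℝ) (v : D) : Dm (WsZ c x y) (v : Completion D) :=
  dm_D G (flSZ G x y) (fun t => ⟨(gS' G (x * t) (y * t)).hs, (gS' G (x * t) (y * t)).hL⟩)
    (fun _ => rfl) (fun t => (G.lsc _ _ (Real.exp_pos _) (Real.exp_pos _)).2) (by simp [gS'])
    (funext fun m => by simp [gS', bst, GF.one]) v

theorem dm_M (G : GRPZ c) (i : Fin 2) (v : D) : Dm (Mi c.Q i) (v : Completion D) :=
  dm_D G (flMZ G i) (fun t => ⟨one_pos, (G.lga (t • e2 i)).1⟩) (fun _ => rfl)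
    (fun t => (G.lga _).2) rfl (funext fun m => by simp [H746.nrt, GF.one, GF.mdot]) v

/-- the orbit of a field -/
def Ob (c : CtxZ D) (B : Fld D) (g : Sh c.cg) (ψ : TT D) : Prop :=
  ∀ f, ψ f = g.U c.cg (B (g.pull (ev f)) c.Q.vac : D)

theorem Ob.ac (s : EG.SG c.cg) (h : Ob c B g ψ) (k : Sh c.cg) {e : V ≃L[ℝ] V}
    (he : ∀ z, k.act z = e z) : Ob c B (k.mul g) (ac (k.U c.cg) e ψ) := fun f => by
  rw [ac_apply, h, s.U_mul, show g.pull (ev (pL e f)) = (k.mul g).pull (ev f) from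
    funext fun z => congrArg f ((he _).symm.trans (s.act_mul _ _ _).symm)]
  rfl

theorem Ob.unique (h : Ob c B g ψ) (h' : Ob c B g ψ') : ψ = ψ' :=
  ContinuousLinearMap.ext fun f => (h f).trans (h' f).symm

theorem start (G : GRPZ c) (hc : EG.NG.COV c.cg) (hB : c.Q.fld B) (hB' : c.Q.fld B')
    (hA : IsAdj B B') : ∃ F, FamZ c F ∧ fw hB ∈ F ∧ ∀ ψ ∈ F, ∃ ψ' ∈ F, TQ c ψ ψ' := by
  have s := EG.sg_row c.cg
  obtain ⟨-, n, q, κ, -, h2⟩ := hc B B' hB hB' hA
  have h1 : ∀ i, c.Q.fld (q i).B := fun i => (lb_fld (q i)).1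
  have h1' : ∀ i, c.Q.fld (q i).B' := fun i => (lb_fld (q i)).2
  have p : ∀ (g : Sh c.cg) (f : Sch), g.inv.pull (g.pull (ev f)) = ev f := fun g f =>
    funext fun z => congrArg f (s.act_inv g z)
  have o : ∀ g : Sh c.cg, Ob c B g (∑ i, κ g.inv i • fw (h1 i)) ∧
      Ob c B' g (∑ i, star (κ g.inv i) • fw (h1' i)) := fun g =>
    ⟨fun f => by
      refine Eq.trans ?_ (u_vac s g (h2 g.inv _ (s.test g _ ⟨f, rfl⟩)).1).symm
      rw [p]
      simp [fw_apply]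
      rfl, fun f => by
      refine Eq.trans ?_ (u_vac s g (h2 g.inv _ (s.test g _ ⟨f, rfl⟩)).2).symm
      rw [p]
      simp [fw_apply]
      rfl⟩
  have tr : ∀ g : Sh c.cg, TQ c (∑ i, κ g.inv i • fw (h1 i))
      (∑ i, star (κ g.inv i) • fw (h1' i)) := fun g K f hf => by
    simp only [ContinuousLinearMap.sum_apply]
    exact tr_sum _ fun i _ => (fw_tr _ _ (q i).a).smul _ K f hf
  let S := {ψ | ∃ g, Ob c B g ψ ∨ Ob c B' g ψ}
  let R := range (fun i => fw (h1 i)) ∪ range fun i => fw (h1' i)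
  have le : Submodule.span ℂ S ≤ Submodule.span ℂ R := Submodule.span_le.2 <| by
    rintro ψ ⟨g, h | h⟩
    · exact h.unique (o g).1 ▸ Submodule.sum_mem _ fun i _ =>
        Submodule.smul_mem _ _ (Submodule.subset_span (.inl ⟨i, rfl⟩))
    · exact h.unique (o g).2 ▸ Submodule.sum_mem _ fun i _ =>
        Submodule.smul_mem _ _ (Submodule.subset_span (.inr ⟨i, rfl⟩))
  have tc : ∀ ψ ∈ Submodule.span ℂ R, TCZ c ψ := fun ψ hψ => by
    induction hψ using Submodule.span_induction with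
    | mem _ h => rcases h with ⟨i, rfl⟩ | ⟨i, rfl⟩ <;> exact fw_tc G _
    | zero => exact .zero
    | add _ _ _ _ a b => exact a.add b
    | smul z _ _ a => exact a.smul z
  have par : ∀ ψ ∈ Submodule.span ℂ S, ∃ ψ' ∈ Submodule.span ℂ S, TQ c ψ ψ' := fun ψ hψ => by
    induction hψ using Submodule.span_induction with
    | mem _ h =>
      obtain ⟨g, h | h⟩ := h
      · exact ⟨_, Submodule.subset_span ⟨g, .inr (o g).2⟩, h.unique (o g).1 ▸ tr g⟩
      · exact ⟨_, Submodule.subset_span ⟨g, .inl (o g).1⟩, h.unique (o g).2 ▸ (tr g).symm⟩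
    | zero => exact ⟨0, zero_mem _, fun _ _ _ => .zero⟩
    | add _ _ _ _ a b =>
      obtain ⟨_, a1, a2⟩ := a
      obtain ⟨_, b1, b2⟩ := b
      exact ⟨_, add_mem a1 b1, a2.add b2⟩
    | smul z _ _ a =>
      obtain ⟨_, a1, a2⟩ := a
      exact ⟨_, Submodule.smul_mem _ _ a1, a2.smul z⟩
  haveI := FiniteDimensional.span_of_finite ℂ (A := R) ((finite_range _).union (finite_range _))
  refine ⟨Submodule.span ℂ S, ⟨Submodule.finiteDimensional_of_le le, fun ψ hψ => ?_⟩,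
    Submodule.subset_span ⟨Sh.gm c.cg false, .inl fun f => ?_⟩, par⟩
  · induction hψ using Submodule.span_induction with
    | mem ψ h =>
      have m := Submodule.subset_span (R := ℂ) h
      obtain ⟨g, h⟩ := h
      have v : ∀ f, ∃ v : D, ψ f = v := fun f => by
        rcases h with h | h <;> exact (s.sur g _).imp fun _ e => (h f).trans e
      refine ⟨tc ψ (le m), (par ψ m).imp fun _ a => ⟨a.1, a.2.lc G⟩,
        fun x y => Submodule.subset_span ⟨(gS' G x y).mul g, ?_⟩,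
        fun w => Submodule.subset_span ⟨(gG' G w).mul g, ?_⟩, fun x y f => ?_, fun i f => ?_⟩
      · have e := (G.lsc _ _ (Real.exp_pos x) (Real.exp_pos y)).2
        exact h.imp (fun a => a.ac s (gS' G x y) e) fun a => a.ac s (gS' G x y) e
      · have e := (G.lga w).2
        exact h.imp (fun a => a.ac s (gG' G w) e) fun a => a.ac s (gG' G w) e
      · obtain ⟨v, hv⟩ := v f
        exact hv ▸ dm_S G x y v
      · obtain ⟨v, hv⟩ := v f
        exact hv ▸ dm_M G i v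
    | zero => exact .zero
    | add _ _ _ _ a b => exact a.add b
    | smul z _ _ a => exact a.smul z
  · rw [(s.gm false).1, show (Sh.gm c.cg false).pull (ev f) = ev f from
      funext fun z => congrArg f ((s.gm false).2 z)]
    rfl

/-- polynomial families -/
def PR (c : CtxZ D) (φ φ' : TT D) : Prop := ∃ N : ℕ, ∀ f, In {z | be z < 0} f →
  ∃ η η' : ℝ → Completion D, η 0 = φ (sch f) ∧ η' 0 = φ' (sch (bar f)) ∧
    (∀ t, 0 ≤ t → Reg (-t) f → Tr c.cg (cph t '' tsupport f) (η t) (η' t)) ∧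
    Pol N {t | 0 ≤ t ∧ Reg (-t) f} (fun t => c.SK t (η t)) ∧
    Pol N {t | 0 ≤ t ∧ Reg (-t) f} fun t => c.SK t (η' t)

theorem PR.lin (h : PR c φ φ') (h' : PR c ψ ψ') (z : ℂ) :
    PR c (φ + z • ψ) (φ' + star z • ψ') := by
  obtain ⟨N, h⟩ := h
  obtain ⟨M, h'⟩ := h'
  refine ⟨max N M, fun f hf => ?_⟩
  obtain ⟨η, η', a1, a2, a3, a4, a5⟩ := h f hf
  obtain ⟨ζ, ζ', b1, b2, b3, b4, b5⟩ := h' f hf
  refine ⟨fun t => η t + z • ζ t, fun t => η' t + star z • ζ' t, by simp [a1, b1], by simp [a2, b2],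
    fun t p q => .add _ _ _ _ (a3 t p q) (.smul z _ _ (b3 t p q)), ?_, ?_⟩
  · simpa using (a4.mono (le_max_left _ _)).add ((b4.mono (le_max_right _ _)).smul z)
  · simpa using (a5.mono (le_max_left _ _)).add ((b5.mono (le_max_right _ _)).smul (star z))

theorem PR.zero : PR c 0 0 := ⟨0, fun _ _ => ⟨0, 0, rfl, rfl, fun _ _ _ => .zero,
  by simpa using Pol.zero, by simpa using Pol.zero⟩⟩

theorem ev_pr (t : T2Z c) (E : EEZ c) (h : EvZ c l φ) (h' : φ' ∈ WWZ c) (k : TQ c φ φ') :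
    PR c φ φ' := by
  refine ⟨⌈l.re⌉₊, fun f hf => ⟨fun s => φ (sch (pe (l.re - 4 - ⌈l.re⌉₊) (-s) f)),
    fun s => φ' (sch (pe (l.re - 4 - ⌈l.re⌉₊) (-s) (bar f))), by simp, by simp, fun s _ r => ?_,
    h.pol t E (Nat.le_ceil _) hf, ?_⟩⟩
  · simpa only [pe_bar, neg_neg] using k _ _ (in_img hf r)
  · have := (h.lc t.toT1Z h' (k.lc t.grp)).pol t E (N := ⌈l.re⌉₊) (Nat.le_ceil _) hf.bar
    simp only [Reg, show tsupport (bar f) = tsupport f from Ap.tsupport_conj f] at this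
    exact this

/-- **row PF** -/
theorem pf_g (t : T2Z c) (E : EEZ c) (hc : EG.NG.COV c.cg) :
    @EG.NG.PF _ _ _ c.cg (nd c) := fun B B' hB hB' hA => by
  obtain ⟨F, hF, m, par⟩ := start t.grp hc hB hB' hA
  have k : ∀ ψ ∈ Submodule.span ℂ {ψ | ψ ∈ F ∧ ∃ l, EvZ c l ψ},
      ∃ ψ' ∈ F, TQ c ψ ψ' ∧ PR c ψ ψ' := fun ψ hψ => by
    induction hψ using Submodule.span_induction with
    | mem ψ h =>
      obtain ⟨a, l, b⟩ := h
      obtain ⟨ψ', p, q⟩ := par ψ a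
      exact ⟨ψ', p, q, ev_pr t E b (hF.le p) q⟩
    | zero => exact ⟨0, zero_mem _, fun _ _ _ => .zero, .zero⟩
    | add _ _ _ _ a b =>
      obtain ⟨_, a1, a2, a3⟩ := a
      obtain ⟨_, b1, b2, b3⟩ := b
      exact ⟨_, add_mem a1 b1, a2.add b2, by simpa using a3.lin b3 1⟩
    | smul z _ _ a =>
      obtain ⟨_, a1, a2, a3⟩ := a
      exact ⟨_, F.smul_mem _ a1, a2.smul z, by simpa using PR.zero.lin a3 z⟩
  obtain ⟨ψ', p, q, N, h⟩ := k _ (hF.dec t E m)
  rw [(q.lc t.grp).unique t.toT1Z ((fw_tr hB hB' hA).lc t.grp) (hF.mb _ p).tc (fw_tc t.grp _)] at h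
  refine ⟨N, fun f hf => ?_⟩
  obtain ⟨η, η', a, b, r⟩ := h f hf
  refine ⟨η, η', a.trans ?_, b.trans ?_, r⟩
  · exact (fw_apply (c := c) hB _).trans (by rw [Ap.ev_sch hf.1]; rfl)
  · exact (fw_apply (c := c) hB' _).trans (by rw [Ap.ev_sch hf.bar.1]; rfl)

end

end Vale.Agent.P352X.Pf.G
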